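import Vale.Agent.P181.BL.H640.LinAll
import Vale.Agent.P181.BL.H613.BlkP
import Vale.Agent.P181.BL.H820.CoreR
import Vale.Agent.P181.BL.H368.CutR
import Vale.Agent.P181.BL.H481.LowR
import Vale.Agent.P181.BL.H540.LiftR
import Vale.Agent.P181.BL.H650.One
import Vale.Agent.P181.BL.H118.BordR
import Vale.Agent.P181.BL.H118.MinR
import Vale.Agent.P181.BL.H742.KeyR
import Vale.Agent.P181.BL.H742.HeadR
import Vale.Agent.P181.TL.H797.FinalP
import Vale.Agent.P181.TL.H353.Ref
import Vale.Agent.P181.TL.H639.BalB
import Vale.Agent.P181.SZR2.Lower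
import Vale.Agent.P181.SZT0.Tr
import Vale.Agent.P181.TS.H798.Fin
import Vale.Agent.P181.H467.NT.All
import Vale.Agent.P181.PLX.Main

set_option autoImplicit false

/-!
# P181, BL: the closed forms
-/

namespace Vale.Agent.P181.BL.H976

open Vale.Agent.P181.BL

/-- **(B3)** without hypotheses. -/
theorem oneR_closed : OneR := H650.oneR H118.bordR H118.minR

/-- **(B4)** without hypotheses. -/
theorem liftR_closed : LiftR := H540.liftR oneR_closed

/-- **(B9)** without hypotheses. -/
theorem lowR_closed : LowR :=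
  H481.lowR TL.H353.refB liftR_closed H742.keyR H742.headR Vale.Agent.P181.SZR2.lowerS
    Vale.Agent.P181.SZT0.transS

/-- **(B10)** without hypotheses. -/
theorem coreR_closed : CoreR := H820.coreR H368.upR TL.H639.balB lowR_closed

/-- **(B11)** without hypotheses. -/
theorem blkP_closed : BlkP := H613.blkP coreR_closed

/-- Heavy tails, `b ≥ 2 a`. -/
theorem tailS_closed : TailS := by
  obtain ⟨c, h⟩ := TS.tailF 1 one_pos
  refine ⟨c, fun a b n lam hab hsum => h a b n lam ?_ hsum⟩
  have h1 : ((2 * a : ℕ) : ℝ) ≤ b := by exact_mod_cast hab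
  push_cast at h1
  linarith

/-- **(B12)** without hypotheses. -/
theorem linAll_closed : LinAll :=
  H640.linAll_of blkP_closed TL.H797.twoLongPA_closed tailS_closed PLX.polyS H467.NT.linS

end Vale.Agent.P181.BL.H976
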